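import Vale.Agent.P011.E6.Defs

/-!
The action of the diagonal matrices `(q, q*, 1)`.
-/

open Matrix

namespace Vale.Agent.P011.E6.H691

open Vale.Agent.P011.MPQ Vale.Agent.P011.D4 Vale.Agent.P011.D4.Oct Alb

variable {F : Type} [Field F] {a b c : Fˣ}

/-- A quaternion as an octonion. -/
def oq (q : Qt a b) : Oct a b c := ⟨q, 0⟩

theorem star_mul_self' {q : Qt a b} (hq : nrd q = 1) : star q * q = 1 := by
  simp only [nrd] at hq
  ext
  · simp
    linear_combination hq
  · simp
    ring
  · simp
    ring
  · simp
    ring

theorem mul_star_self' {q : Qt a b} (hq : nrd q = 1) : q * star q = 1 := by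
  simp only [nrd] at hq
  ext
  · simp
    linear_combination hq
  · simp
    ring
  · simp
    ring
  · simp
    ring

/-- The matrix `(q, q*, 1)`. -/
def dz (q : Qt a b) (hq : nrd q = 1) : (Matrix (Fin 3) (Fin 3) (Qt a b))ˣ where
  val := diagonal ![q, star q, 1]
  inv := diagonal ![star q, q, 1]
  val_inv := by
    rw [diagonal_mul_diagonal, ← diagonal_one]
    congr 1
    funext i
    fin_cases i
    · exact mul_star_self' hq
    · exact star_mul_self' hq
    · exact one_mul _
  inv_val := by
    rw [diagonal_mul_diagonal, ← diagonal_one]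
    congr 1
    funext i
    fin_cases i
    · exact star_mul_self' hq
    · exact mul_star_self' hq
    · exact one_mul _

theorem re_algebraMap (t : F) : (algebraMap F (Qt a b) t).re = t := rfl

theorem mul_algebraMap_mul {q : Qt a b} (hq : nrd q = 1) (t : F) :
    q * algebraMap F (Qt a b) t * star q = algebraMap F (Qt a b) t := by
  rw [← Algebra.commutes, mul_assoc, mul_star_self' hq, mul_one]

theorem act_dz (q : Qt a b) (hq : nrd q = 1) (x : Alb a b c) :
    act (dz q hq) 1 x =
      ⟨x.d1, x.d2, x.d3, star (oq q) * x.x1, x.x2 * star (oq q), oq q * x.x3 * oq q⟩ := by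
  have hq' : nrd (star q) = 1 := by
    simp only [nrd] at hq ⊢
    simp
    linear_combination hq
  have e1 := mul_algebraMap_mul hq x.d1
  have e2 := mul_algebraMap_mul hq' x.d2
  rw [star_star] at e2
  unfold act
  have hinv : (((dz q hq)⁻¹ : (Matrix (Fin 3) (Fin 3) (Qt a b))ˣ) :
      Matrix (Fin 3) (Fin 3) (Qt a b)) = diagonal ![star q, q, 1] := rfl
  have hval : ((dz q hq : (Matrix (Fin 3) (Fin 3) (Qt a b))ˣ) :
      Matrix (Fin 3) (Fin 3) (Qt a b)) = diagonal ![q, star q, 1] := rfl
  rw [hinv, hval]
  have hS : ∀ i j, (diagonal ![q, star q, 1] * mat x * (diagonal ![q, star q, 1]).conjTranspose)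
      i j = ![q, star q, 1] i * mat x i j * star (![q, star q, 1] j) := by
    intro i j
    rw [diagonal_conjTranspose, mul_diagonal, diagonal_mul]
    rfl
  apply Alb.ext
  · change ((diagonal ![q, star q, 1] * mat x * (diagonal ![q, star q, 1]).conjTranspose)
      0 0).re = x.d1
    rw [hS]
    change (q * algebraMap F (Qt a b) x.d1 * star q).re = x.d1
    rw [e1]
    rfl
  · change ((diagonal ![q, star q, 1] * mat x * (diagonal ![q, star q, 1]).conjTranspose)
      1 1).re = x.d2
    rw [hS]
    change (star q * algebraMap F (Qt a b) x.d2 * star (star q)).re = x.d2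
    rw [star_star, e2]
    rfl
  · change ((diagonal ![q, star q, 1] * mat x * (diagonal ![q, star q, 1]).conjTranspose)
      2 2).re = x.d3
    rw [hS]
    change ((1 : Qt a b) * algebraMap F (Qt a b) x.d3 * star 1).re = x.d3
    rw [star_one, mul_one, one_mul]
    rfl
  · apply Oct.ext
    · change (diagonal ![q, star q, 1] * mat x * (diagonal ![q, star q, 1]).conjTranspose)
        1 2 = _
      rw [hS]
      change star q * x.x1.fst * star 1 = star q * x.x1.fst + (c : F) • (star x.x1.snd * (-0))
      rw [star_one, mul_one, neg_zero, mul_zero, smul_zero, add_zero]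
    · change (1 : Qt a b) * Matrix.vecMul (vec x) (diagonal ![star q, q, 1]) 0 =
        x.x1.snd * star q + -0 * star x.x1.fst
      rw [vecMul_diagonal, one_mul, neg_zero, zero_mul, add_zero]
      rfl
  · apply Oct.ext
    · change (diagonal ![q, star q, 1] * mat x * (diagonal ![q, star q, 1]).conjTranspose)
        2 0 = _
      rw [hS]
      change 1 * x.x2.fst * star q = x.x2.fst * star q + (c : F) • (star (-0) * x.x2.snd)
      rw [one_mul, neg_zero, star_zero, zero_mul, smul_zero, add_zero]
    · change (1 : Qt a b) * Matrix.vecMul (vec x) (diagonal ![star q, q, 1]) 1 =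
        -0 * x.x2.fst + x.x2.snd * star (star q)
      rw [vecMul_diagonal, one_mul, neg_zero, zero_mul, zero_add, star_star]
      rfl
  · apply Oct.ext
    · change (diagonal ![q, star q, 1] * mat x * (diagonal ![q, star q, 1]).conjTranspose)
        0 1 = _
      rw [hS]
      change q * x.x3.fst * star (star q) =
        (q * x.x3.fst + (c : F) • (star x.x3.snd * 0)) * q +
          (c : F) • (star 0 * (x.x3.snd * q + 0 * star x.x3.fst))
      rw [star_star, mul_zero, smul_zero, add_zero, star_zero, zero_mul, smul_zero, add_zero]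
    · change (1 : Qt a b) * Matrix.vecMul (vec x) (diagonal ![star q, q, 1]) 2 =
        0 * (q * x.x3.fst + (c : F) • (star x.x3.snd * 0)) +
          (x.x3.snd * q + 0 * star x.x3.fst) * star q
      rw [vecMul_diagonal, one_mul, zero_mul, zero_mul, zero_add, add_zero, mul_assoc,
        mul_star_self' hq, mul_one]
      change x.x3.snd * 1 = _
      rw [mul_one]

end Vale.Agent.P011.E6.H691
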